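import Vale.Agent.P073Y.Wf.Sk2
import Vale.Agent.P073Y.Wb.Init1
import Vale.Agent.P073Z.RCX2

/-!
# Spreading the points on the free wires
-/

open Set Metric Topology Filter
open scoped NNReal

namespace P073.Wf

open P073.Bd (Band I cl Match Sgn Comm Ext PwLip Chart Lev corner Gen1)
open P073.Wb P073.Wb.Init1

/-- extension of homeomorphisms of the wires, relative to the frozen part and the soft cells -/
theorem evenF (X : Base) {fro : Set X.K.ι}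
    (hf : ∀ c ∈ fro, ∀ j, X.K.cell j ⊆ X.K.cell c → j ∈ fro)
    (hU : ∀ c, X.K.cell c ⊆ X.U → c ∈ fro) (θ : X.K.ι → E3 → E3)
    (hθ : ∀ e, X.K.dim e = 1 → (∃ Φ : ConHomeo (X.K.cell e) (X.K.cell e),
      EqOn Φ.toFun (θ e) (X.K.cell e)) ∧ EqOn (θ e) id (X.K.bd e) ∧
      (e ∈ fro → EqOn (θ e) id (X.K.cell e))) :
    ∃ Θ : ConHomeo X.Ω X.Ω, EqOn Θ.toFun id (dom X fro) ∧
      (∀ c, Θ.toFun '' X.K.cell c = X.K.cell c) ∧
      ∀ e, X.K.dim e = 1 → EqOn Θ.toFun (θ e) (X.K.cell e) := by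
  classical
  have hP : X.K.FaceClosed fun c => X.K.dim c ≤ 1 ∨ c ∈ fro :=
    (X.K.faceClosed_dim 1).or fun i j hi hj => hf i hi j hj
  have hid : ∀ c ∈ fro, EqOn (if X.K.dim c = 1 then θ c else id) id (X.K.cell c) := fun c hc => by
    split_ifs with h
    exacts [(hθ c h).2.2 hc, fun _ _ => rfl]
  obtain ⟨ψ, hψ⟩ := (X.K.realiz_cell 3).exists_glue (X.K.realiz_cell 3) hP
    (fun c _ => X.dim_le c) (fun c => if X.K.dim c = 1 then θ c else id)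
    (fun c _ => by
      split_ifs with h
      exacts [(hθ c h).1, ⟨.refl (X.K.ball c).conicalSet, fun _ _ => rfl⟩])
    (fun i j hi hj => by
      rcases X.K.eq_or_subset_bd hj with rfl | hb
      · exact fun _ _ => rfl
      rcases hi with hi | hi
      · have h1 := X.K.dim_lt hb
        rw [if_pos (show X.K.dim i = 1 by omega), if_neg (show X.K.dim j ≠ 1 by omega)]
        exact (hθ i (by omega)).2.1.mono hb
      · exact fun x hx => (hid i hi (hj hx)).trans (hid j (hf i hi j hj) hx).symm)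
  obtain ⟨Φ, h1, h2⟩ := (X.K.realiz_cell 3).exists_extend (X.K.realiz_cell 3) hP
    (fun c _ => X.dim_le c) ψ fun c hc => (hψ c hc).2
  have e : X.K.rskel X.K.cell 3 = X.K.carrier := X.K.skel_eq_carrier X.dim_le
  have hfin := X.fin
  have hcl : IsClosed X.K.carrier := isClosed_iUnion_of_finite X.K.isClosed_cell
  have hUc := X.U_cpt.isClosed
  have hfro : ∀ c ∈ fro, EqOn Φ.toFun id (X.K.cell c) := fun c hc x hx =>
    (h1 (mem_iUnion₂.2 ⟨c, Or.inr hc, hx⟩)).trans (((hψ c (Or.inr hc)).1 hx).trans (hid c hc hx))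
  have hag : EqOn (Φ.cast e e).toFun (ConHomeo.refl X.U_loc.conicalSet).toFun
      (X.K.carrier ∩ X.U) := fun x hx => by
    obtain ⟨c, a1, a2⟩ := X.sub x hx
    exact hfro c (hU c (a2.trans inter_subset_right)) a1
  have him : X.K.carrier ∩ X.U ⊆ (Φ.cast e e).toFun '' (X.K.carrier ∩ X.U) :=
    fun y hy => ⟨y, hy, hag hy⟩
  have hl := ConHomeo.glue_left _ _ hcl hUc hcl hUc hag him
  refine ⟨(ConHomeo.glue _ _ hcl hUc hcl hUc hag him).cast X.cover X.cover, ?_,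
    fun c => ((hl.mono (X.K.cell_subset_carrier c)).image_eq).trans (h2 c (X.dim_le c)),
    fun c hc x hx => (hl (X.K.cell_subset_carrier c hx)).trans ?_⟩
  · rintro x (hx | hx)
    · exact ConHomeo.glue_right _ _ hcl hUc hcl hUc hag him hx
    · obtain ⟨c, hc, hx⟩ := mem_iUnion₂.1 hx
      exact (hl (X.K.cell_subset_carrier c hx)).trans (hfro c hc hx)
  refine (h1 (mem_iUnion₂.2 ⟨c, Or.inl hc.le, hx⟩)).trans (((hψ c (Or.inl hc.le)).1 hx).trans ?_)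
  rw [if_pos hc]

theorem init1F : INIT1F := by
  intro X c₀ lo hi g t lam fro w R hS
  classical
  have := X.finι
  have hUΩ : X.U ⊆ X.Ω := X.cover ▸ subset_union_right
  have hKΩ : X.K.carrier ⊆ X.Ω := X.cover ▸ subset_union_left
  have hcΩ : ∀ c, X.K.cell c ⊆ X.Ω := fun c => (X.K.cell_subset_carrier c).trans hKΩ
  have hlΩ : ∀ i, lvl g t i ⊆ X.Ω := fun _ _ hx => hx.1
  have hUd : X.U ⊆ dom X fro := subset_union_left
  have hcd : ∀ c ∈ fro, X.K.cell c ⊆ dom X fro := fun c hc x hx =>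
    Or.inr (mem_iUnion₂.2 ⟨c, hc, hx⟩)
  have hdΩ : dom X fro ⊆ X.Ω := union_subset hUΩ (iUnion₂_subset fun c _ => hcΩ c)
  have key : ∀ e, ∃ (θ : E3 → E3) (z : E3 → Band E3), X.K.dim e = 1 →
      ((∃ Φ : ConHomeo (X.K.cell e) (X.K.cell e), EqOn Φ.toFun θ (X.K.cell e)) ∧
        EqOn θ id (X.K.bd e) ∧ (e ∈ fro → EqOn θ id (X.K.cell e))) ∧
      (e ∉ fro →
        (∀ p ∈ θ '' ((⋃ i, lvl g t i) ∩ X.K.cell e), (z p).Ok ∧ (z p).In (X.K.cell e) ∧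
          (z p).B ⊆ X.K.ocell e ∧ (z p).W = {p} ∧ LipschitzOnWith (X.L e) (z p).u (z p).B) ∧
        ∀ p ∈ θ '' ((⋃ i, lvl g t i) ∩ X.K.cell e), ∀ q ∈ θ '' ((⋃ i, lvl g t i) ∩ X.K.cell e),
          p ≠ q → Disjoint (z p).B (z q).B) := by
    intro e
    by_cases he : X.K.dim e = 1
    swap
    · exact ⟨id, fun _ => ⟨∅, 0, 0⟩, fun h' => absurd h' he⟩
    by_cases hU : e ∈ fro
    · exact ⟨id, fun _ => ⟨∅, 0, 0⟩, fun _ => ⟨⟨⟨.refl (X.K.ball e).conicalSet, fun _ _ => rfl⟩,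
        fun _ _ => rfl, fun _ _ _ => rfl⟩, fun h' => absurd hU h'⟩⟩
    obtain ⟨x, y, e1, e2, e3⟩ := hS e he hU
    have hxy : x ≠ y := by
      rintro rfl
      obtain ⟨z, hz⟩ := X.K.ocell_nonempty e
      rw [RCx.ocell, e1, e2, segment_same] at hz
      exact hz.2 (Or.inl hz.1)
    have hfin : ((⋃ i, lvl g t i) ∩ X.K.cell e).Finite := by
      rw [iUnion_inter]
      exact finite_iUnion fun i => (R.gen i).fin.subset
        (inter_subset_inter_right _ (X.K.cell_subset_skel he.le))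
    obtain ⟨θ, a1, -, z, a2, a3⟩ := wire hxy hfin (fun p hp => ⟨e1 ▸ hp.2, fun hb =>
      let ⟨i, hi⟩ := mem_iUnion.1 hp.1
      disjoint_left.1 (R.gen i).vert hi (X.K.bd_subset_skel he.le (e2 ▸ hb))⟩) e3
    refine ⟨θ.toFun, z, fun _ => ⟨⟨⟨θ.cast e1.symm e1.symm, fun _ _ => rfl⟩, e2 ▸ a1,
      fun h' => absurd h' hU⟩, fun _ => ⟨fun p hp => ?_, a3⟩⟩⟩
    rw [RCx.ocell, e2]
    simpa only [← e1] using a2 p hp
  choose θ ζ hθ using key
  obtain ⟨Θ, b1, b2, b3⟩ := evenF X R.face R.froU θ fun e he => (hθ e he).1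
  have b4 : ∀ x ∈ dom X fro, Θ.invFun x = x := fun x hx => by
    have := Θ.left_inv (hdΩ hx)
    rwa [b1 hx] at this
  let g' : ConHomeo X.Ω (Icc lo hi) := Θ.symm.trans g
  have hg : ∀ x ∈ dom X fro, g'.toFun x = g.toFun x := fun x hx => congrArg g.toFun (b4 x hx)
  have hl : ∀ i, lvl g' t i = Θ.toFun '' lvl g t i := fun i => by
    refine Subset.antisymm (fun x hx => ⟨_, ⟨Θ.mapsTo_inv hx.1, hx.2⟩, Θ.right_inv hx.1⟩) ?_
    rintro _ ⟨x, hx, rfl⟩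
    refine ⟨Θ.mapsTo hx.1, ?_⟩
    show g.toFun (Θ.invFun (Θ.toFun x)) _ = _
    rw [Θ.left_inv hx.1, hx.2]
  have hlU : ∀ i, ∀ Z ⊆ dom X fro, lvl g' t i ∩ Z = lvl g t i ∩ Z := fun i Z hZ =>
    Subset.antisymm (fun x hx => ⟨⟨hx.1.1, hg x (hZ hx.2) ▸ hx.1.2⟩, hx.2⟩)
      fun x hx => ⟨⟨hx.1.1, (hg x (hZ hx.2)).symm ▸ hx.1.2⟩, hx.2⟩
  have hl2 : ∀ i j, lvl g' t i ∩ lvl g' t j = Θ.toFun '' (lvl g t i ∩ lvl g t j) := fun i j => by
    rw [hl, hl, Θ.injOn.image_inter (hlΩ i) (hlΩ j)]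
  have hlu : ⋃ i, lvl g' t i = Θ.toFun '' ⋃ i, lvl g t i := by
    simp only [hl, image_iUnion]
  have huΩ : ⋃ i, lvl g t i ⊆ X.Ω := iUnion_subset hlΩ
  have hs : ∀ k, ∀ A ⊆ X.Ω, Θ.toFun '' A ∩ X.K.skel k = Θ.toFun '' (A ∩ X.K.skel k) :=
    fun k A hA => img_inter Θ hA ((X.K.skel_subset_carrier k).trans hKΩ)
      (img_sub Θ b2 (X.K.sub_skel k))
  refine ⟨g', Θ, rfl, b1, b2, hl, ⟨R.lt, R.pos, ?_, R.inside, R.sep, R.face, R.froU, R.on,
    fun i x hx => ?_, R.keepU, R.keepbd, R.keep, R.comm, R.disj, fun i => ?_, fun i j hij => ?_,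
    fun i φ hφ hU => ?_, fun i c hU => ?_, R.cvx, fun i c hc h3 => ?_, fun c hc hU => ?_,
    fun i => ?_, fun i j hf => ?_⟩, ζ, fun e he hU => ?_⟩
  · refine Subset.antisymm (fun x hx => ⟨X.ball.1 hx, ?_⟩) fun x hx => ?_
    · rw [hg x (hUd (X.bd_sub hx))]
      exact (R.bd_eq ▸ hx : x ∈ {x ∈ X.Ω | g.toFun x ∈ frontier (Icc lo hi)}).2
    · have a1 : Θ.invFun x ∈ X.bd := R.bd_eq ▸ ⟨Θ.mapsTo_inv hx.1, hx.2⟩
      have a2 := b1 (hUd (X.bd_sub a1))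
      rw [Θ.right_inv hx.1] at a2
      exact a2 ▸ a1
  · rw [hg x hx]
    exact R.nat i x hx
  · rw [hlU i _ hUd]
    exact R.att i
  · rw [inter_inter_distrib_right, hlU i _ hUd, hlU j _ hUd, ← inter_inter_distrib_right]
    exact R.att₂ i j hij
  · rw [hlU i _ (hU.trans hUd)]
    exact R.arc i φ hφ hU
  · refine LipschitzOnWith.of_dist_le_mul fun x hx y hy => ?_
    have a1 := hx.2
    have a2 := hy.2
    rw [hg x (hcd c hU hx.1)] at a1 ⊢
    rw [hg y (hcd c hU hy.1)] at a2 ⊢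
    exact (R.lip i c hU).dist_le_mul x ⟨hx.1, a1⟩ y ⟨hy.1, a2⟩
  · rw [hlU i _ (hcd c hc)]
    exact R.discs i c hc h3
  · rw [hlu, hs 1 _ huΩ, img_inter Θ (inter_subset_left.trans huΩ) (hcΩ c) (b2 c),
      (Θ.injOn.mono (inter_subset_right.trans (hcΩ c))).ncard_image]
    exact R.L_ge c hc hU
  · rw [hl]
    refine gen1_img Θ hKΩ b2 (hlΩ i) (fun x hx => ?_) (R.gen i)
    obtain ⟨r, hr, H⟩ := g.conical x hx.1
    refine ⟨r, hr, fun v hv hxv s hs => ⟨(H v hv hxv.1 s hs).1, ?_⟩⟩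
    rw [(H v hv hxv.1 s hs).2, Pi.add_apply, Pi.smul_apply, Pi.sub_apply, hxv.2, hx.2, sub_self,
      smul_zero, add_zero]
  · rw [hl2, disjoint_iff_inter_eq_empty, hs 1 _ (inter_subset_left.trans (hlΩ i)),
      hs 2 _ (inter_subset_left.trans (hlΩ i)), (R.gen₂ i j hf).1.inter_eq, image_empty]
    exact ⟨rfl, (R.gen₂ i j hf).2.image _⟩
  · rw [hlu, img_inter Θ huΩ (hcΩ e) (b2 e), ((b3 e he).mono inter_subset_right).image_eq]
    exact (hθ e he).2 hU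

end P073.Wf
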