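import Vale.Agent.P073Y.Wf.Defs

/-!
# The two family engine with softly frozen cells: the top statement
-/

open Set Metric Topology Filter
open scoped NNReal

namespace P073.Wf

open P073.Bd (Band I cl Match Sgn Comm Ext PwLip Chart Lev corner Gen1)
open P073.Wb

/-- the frozen part together with the soft cells -/
def dom (X : Base) (fro : Set X.K.ι) : Set E3 := X.U ∪ ⋃ c ∈ fro, X.K.cell c

/-- a finite disjoint union of proper discs -/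
def Discs (T S : Set E3) : Prop := ∃ 𝒟 : Finset (Set E3), T = ⋃ d ∈ 𝒟, d ∧
  (∀ d ∈ 𝒟, ∀ d' ∈ 𝒟, d ≠ d' → Disjoint d d') ∧ ∀ d ∈ 𝒟, ConBall 2 d (d ∩ S)

/-- every point of `T` is joined to `S` inside `T` -/
def Joined (T S : Set E3) : Prop :=
  ∀ x ∈ T, ∃ Z, Z ⊆ T ∧ IsPreconnected Z ∧ x ∈ Z ∧ (Z ∩ S).Nonempty

/-- the input: `w i` is the band of half width `4 lam` on the frozen part and the soft cells;
its level function is the natural one, its moves are arbitrary -/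
structure RawF (X : Base) (c₀ : ℝ≥0) {lo hi : E3} (g : ConHomeo X.Ω (Icc lo hi))
    (t : X.ι → ℝ) (lam : ℝ≥0) (fro : Set X.K.ι) (w : X.ι → Band E3) : Prop where
  lt : ∀ k, lo k < hi k
  pos : 0 < lam
  bd_eq : X.bd = {x ∈ X.Ω | g.toFun x ∈ frontier (Icc lo hi)}
  inside : ∀ i, lo (X.co i) + 4 * lam < t i ∧ t i + 4 * lam < hi (X.co i)
  sep : ∀ i j, i ≠ j → X.fam i = X.fam j → 8 * (lam : ℝ) < |t i - t j|
  face : ∀ c ∈ fro, ∀ j, X.K.cell j ⊆ X.K.cell c → j ∈ fro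
  froU : ∀ c, X.K.cell c ⊆ X.U → c ∈ fro
  on : ∀ i, (w i).On (dom X fro)
  nat : ∀ i, ∀ x ∈ dom X fro, (x ∈ (w i).B ↔ |g.toFun x (X.co i) - t i| ≤ 4 * lam) ∧
    (w i).u x = cl ((g.toFun x (X.co i) - t i) / (4 * lam))
  keepU : ∀ i, (w i).Keeps X.U
  keepbd : ∀ i, (w i).Keeps X.bd
  keep : ∀ i, ∀ c ∈ fro, (w i).Keeps (X.K.cell c)
  comm : ∀ i j, i ≠ j → Comm (w i) (w j)
  disj : ∀ i j, i ≠ j → ∀ c ∈ fro, ¬ X.K.cell c ⊆ X.U →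
    Disjoint ((w i).B ∩ (w j).B) (X.K.cell c)
  att : ∀ i, Joined (lvl g t i ∩ X.U) X.bd
  att₂ : ∀ i j, i ≠ j → Joined (lvl g t i ∩ lvl g t j ∩ X.U) X.bd
  arc : ∀ i φ, X.K.dim φ = 2 → X.K.cell φ ⊆ X.U → Joined (lvl g t i ∩ X.K.cell φ) (X.K.bd φ)
  lip : ∀ i, ∀ c ∈ fro, LipschitzOnWith (lam * X.L c) (fun x => g.toFun x (X.co i))
    {x ∈ X.K.cell c | |g.toFun x (X.co i) - t i| ≤ 4 * lam}
  cvx : ∀ c ∈ fro, X.K.dim c = 3 → Convex ℝ (X.K.cell c)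
  discs : ∀ i, ∀ c ∈ fro, X.K.dim c = 3 → Discs (lvl g t i ∩ X.K.cell c) (X.K.bd c)
  L_ge : ∀ c, 2 ≤ X.K.dim c → c ∉ fro → c₀ * X.M₁ c * (X.M₂ c * X.L₀ c +
    (((⋃ i, lvl g t i) ∩ X.K.skel 1 ∩ X.K.cell c).ncard : ℕ)) ≤ X.L c
  gen : ∀ i, Gen1 X.K (lvl g t i)
  gen₂ : ∀ i j, X.fam i ≠ X.fam j → Disjoint (lvl g t i ∩ lvl g t j) (X.K.skel 1) ∧
    (lvl g t i ∩ lvl g t j ∩ X.K.skel 2).Finite

/-- zones on the free wires -/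
def ZonesF (X : Base) (fro : Set X.K.ι) (P : Set E3) (ζ : X.K.ι → E3 → Band E3) : Prop :=
  ∀ e, X.K.dim e = 1 → e ∉ fro →
    (∀ p ∈ P ∩ X.K.cell e, (ζ e p).Ok ∧ (ζ e p).In (X.K.cell e) ∧ (ζ e p).B ⊆ X.K.ocell e ∧
      (ζ e p).W = {p} ∧ LipschitzOnWith (X.L e) (ζ e p).u (ζ e p).B) ∧
    ∀ p ∈ P ∩ X.K.cell e, ∀ q ∈ P ∩ X.K.cell e, p ≠ q → Disjoint (ζ e p).B (ζ e q).B

/-- the free wires are segments, long compared with the number of points on them -/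
def SegF (X : Base) (fro : Set X.K.ι) (P : Set E3) : Prop := ∀ e, X.K.dim e = 1 → e ∉ fro →
  ∃ x y, X.K.cell e = segment ℝ x y ∧ X.K.bd e = {x, y} ∧
    4 * (((P ∩ X.K.cell e).ncard : ℕ) : ℝ) ≤ X.L e * dist x y

/-- the level functions of the bands on the frozen part are the natural ones -/
structure FlatU {X : Base} {c₀ : ℝ≥0} (Fr : Frame X c₀) {lo hi : E3}
    (g : ConHomeo X.Ω (Icc lo hi)) (t : X.ι → ℝ) (lam : ℝ) : Prop where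
  lt : ∀ k, lo k < hi k
  pos : 0 < lam
  bd_eq : X.bd = {x ∈ X.Ω | g.toFun x ∈ frontier (Icc lo hi)}
  inside : ∀ i, lo (X.co i) + 2 * lam < t i ∧ t i + 2 * lam < hi (X.co i)
  sep : ∀ i j, i ≠ j → X.fam i = X.fam j → 4 * lam < |t i - t j|
  nat : ∀ i, ∀ x ∈ X.U, (x ∈ (Fr.nb i).B ↔ |g.toFun x (X.co i) - t i| ≤ 2 * lam) ∧
    (Fr.nb i).u x = cl ((g.toFun x (X.co i) - t i) / (2 * lam)) ∧ True

/-- the pattern of the walls in the faces and in the cells -/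
structure Pat (X : Base) (D : X.ι → Set E3) : Prop where
  arcs : ∀ i φ, X.K.dim φ = 2 → Joined (D i ∩ X.K.cell φ) (X.K.bd φ)
  discs : ∀ i c, X.K.dim c = 3 → Discs (D i ∩ X.K.cell c) (X.K.bd c)

/-- the part of the output which does not depend on the way of normalising -/
structure Out (X : Base) {lo hi : E3} (g G : ConHomeo X.Ω (Icc lo hi)) (t : X.ι → ℝ) (lam : ℝ)
    (b : X.ι → Band E3) : Prop where
  bd : EqOn G.toFun g.toFun X.bd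
  on : ∀ i, (b i).On X.Ω
  nat : ∀ i, ∀ x ∈ X.Ω, (x ∈ (b i).B ↔ |G.toFun x (X.co i) - t i| ≤ lam) ∧
    (b i).u x = cl ((G.toFun x (X.co i) - t i) / lam)
  wall : ∀ i, (b i).W = lvl G t i
  keep : ∀ i c, (b i).Keeps (X.K.cell c)
  keepU : ∀ i, (b i).Keeps X.U
  keepbd : ∀ i, (b i).Keeps X.bd
  comm : ∀ i j, i ≠ j → Comm (b i) (b j)
  frozen : ∀ i, ∀ x ∈ X.U, cl ((G.toFun x (X.co i) - t i) / lam) =
    cl ((g.toFun x (X.co i) - t i) / lam)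
  le : Le X (lvl G t) (lvl g t)
  lab : Lab g t (lvl G t)
  gen : ∀ i, Gen1 X.K (lvl G t i)
  gen₂ : ∀ i j, i ≠ j → Disjoint (lvl G t i ∩ lvl G t j) (X.K.skel 1) ∧
    (lvl G t i ∩ lvl G t j ∩ X.K.skel 2).Finite
  touch : ∀ i c, (lvl G t i ∩ X.K.cell c).Nonempty →
    (lvl G t i ∩ X.K.cell c ∩ X.K.skel 1).Nonempty
  reach : ∀ i j, i ≠ j → ∀ x ∈ lvl G t i ∩ lvl G t j, ∃ Z, Z ⊆ lvl G t i ∩ lvl G t j ∧
    IsPreconnected Z ∧ x ∈ Z ∧ (Z ∩ (X.K.skel 2 ∪ X.U)).Nonempty ∧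
    ∀ c, X.K.dim c = 3 → x ∈ X.K.ocell c → Z ⊆ X.K.cell c
  lip : ∀ c (s : Finset X.ι), (∀ i ∈ s, ∀ j ∈ s, X.fam i = X.fam j) → PwLip (4 * X.L c)
    (fun x => ∑ i ∈ s, cl ((G.toFun x (X.co i) - t i) / lam)) (X.K.cell c)
  drift : ∀ (i : X.ι) (o κ : ℝ), 0 ≤ o →
    (∀ c, ∀ x ∈ X.K.cell c, ∀ y ∈ X.K.cell c, |g.toFun x (X.co i) - g.toFun y (X.co i)| ≤ o) →
    (∀ j, X.fam j = X.fam i → 2 * o + lam < |t j - κ|) → ∀ x ∈ X.Ω,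
      (t i < κ → κ ≤ g.toFun x (X.co i) → t i + lam ≤ G.toFun x (X.co i)) ∧
      (κ < t i → g.toFun x (X.co i) ≤ κ → G.toFun x (X.co i) ≤ t i - lam)

/-- spreading the points on the free wires -/
def INIT1F : Prop := ∀ {X : Base} {c₀ : ℝ≥0} {lo hi : E3} (g : ConHomeo X.Ω (Icc lo hi))
  (t : X.ι → ℝ) {lam : ℝ≥0} {fro : Set X.K.ι} {w : X.ι → Band E3}, RawF X c₀ g t lam fro w →
  SegF X fro (⋃ i, lvl g t i) → ∃ (g' : ConHomeo X.Ω (Icc lo hi)) (Θ : ConHomeo X.Ω X.Ω),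
    g' = Θ.symm.trans g ∧ EqOn Θ.toFun id (dom X fro) ∧
    (∀ c, Θ.toFun '' X.K.cell c = X.K.cell c) ∧ (∀ i, lvl g' t i = Θ.toFun '' lvl g t i) ∧
    RawF X c₀ g' t lam fro w ∧ ∃ ζ, ZonesF X fro (⋃ i, lvl g' t i) ζ

/-- the first state -/
def INITF : Prop := ∀ {X : Base} {c₀ : ℝ≥0} {lo hi : E3} (g : ConHomeo X.Ω (Icc lo hi))
  (t : X.ι → ℝ) {lam : ℝ≥0} {fro : Set X.K.ι} {w : X.ι → Band E3} {ζ : X.K.ι → E3 → Band E3},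
  RawF X c₀ g t lam fro w → ZonesF X fro (⋃ i, lvl g t i) ζ →
  ∃ (Fr : Frame X 0) (S : Soft Fr c₀), FlatU Fr g t lam ∧ State Fr (lvl g t) ∧ S.Inv (lvl g t) ∧
    S.fro = fro ∧ (∀ i, S.ν i = (w i).half) ∧ (∀ i, Fr.nb i = ((w i).cut X.U).half) ∧
    Fr.P = (⋃ i, lvl g t i) ∩ X.K.skel 1 ∧
    ∀ e, X.K.dim e = 1 → e ∉ fro → ∀ p ∈ Fr.P ∩ X.K.cell e, Fr.z p = ζ e p

/-- flattening of the last model -/
def FINF : Prop := ∀ {X : Base} {c₀ : ℝ≥0} {Fr : Frame X c₀} {lo hi : E3}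
  (g : ConHomeo X.Ω (Icc lo hi)) (t : X.ι → ℝ) {lam : ℝ} {b : X.ι → Band E3},
  FlatU Fr g t lam → State Fr (lvl g t) → Model Fr b → extra b = ∅ →
  Le X (fun i => (b i).W) (lvl g t) →
  (∀ i, ∀ p ∈ (b i).W ∩ X.K.skel 1, ∃ j, Att X (lvl g t) X.faces j p) →
  ∃ G : ConHomeo X.Ω (Icc lo hi), Out X g G t lam b

/-- the two family engine with softly frozen cells -/
def W2F (c₀ : ℝ≥0) : Prop := ∀ (X : Base) {lo hi : E3} (g : ConHomeo X.Ω (Icc lo hi))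
  (t : X.ι → ℝ) (lam : ℝ≥0) (fro : Set X.K.ι) (w : X.ι → Band E3) (ζ : X.K.ι → E3 → Band E3),
  RawF X c₀ g t lam fro w → ZonesF X fro (⋃ i, lvl g t i) ζ →
  ∃ (G : ConHomeo X.Ω (Icc lo hi)) (b : X.ι → Band E3), Out X g G t lam b ∧ Pat X (lvl G t) ∧
    (∀ i, Ext (b i) ((w i).cut X.U).half.half X.U) ∧
    (∀ i, ∀ c ∈ fro, ∀ x ∈ (b i).B ∩ X.K.cell c,
      ∃ j, x ∈ (w j).half.half.B ∧ MAt (w j).half.half (b i) x) ∧
    ∀ i j, i ≠ j → ∀ c ∈ fro, ¬ X.K.cell c ⊆ X.U → Disjoint ((b i).B ∩ (b j).B) (X.K.cell c)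

end P073.Wf
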