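import Vale.Agent.P073Y.Wf.Engine
import Vale.Agent.P073Y.Wf.Sk2

/-!
# Assembly of the engine with softly frozen cells
-/

open Set Metric Topology Filter
open scoped NNReal

namespace P073.Wf

open P073.Bd (Band I cl Match Sgn Comm Ext PwLip Chart Lev corner Gen1 bas)
open P073.Wb

/-- the pattern of the glued walls -/
def PATF : Prop := ∀ {X : Base} {c₁ : ℝ≥0} {Fr : Frame X c₁} {D : X.ι → Set E3}, State Fr D →
  ∀ (T : Trace Fr D) (β : T.α → Band E3) (γ : T.κ → Band E3) (b : X.ι → Band E3),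
  Faces T β → Cells T β γ → Walls T γ b → Pat X (fun i => (b i).W)

theorem w2f_of {c : ℝ≥0} (hT : TRACE) (hFa : FACESF c) (hC : CELLSF c) (hW : WALLS)
    (hM : MODEL) (hN : NORMLE) (hE : ENGINEJ) (hP : PATF) (hI : INITF) (hF : FINF) : W2F c := by
  intro X lo hi g t lam fro w ζ hR hZ
  obtain ⟨Fr, S, hFl, hS, hInv, e1, e2, e3, -, -⟩ := hI g t hR hZ
  obtain ⟨D', b, -, -, -, hb, h0, -, hle, hQ, hatt⟩ := hE (Fr := Fr) S.Inv
    (fun _ b => S.Nat b ∧ Pat X fun i => (b i).W)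
    (fun D hD hI => by
      obtain ⟨T⟩ := hT hD
      obtain ⟨β, hβ, n1⟩ := hFa S hD hI T
      obtain ⟨γ, hγ, n2⟩ := hC S hD T β hβ n1
      obtain ⟨b, hb⟩ := hW hD T β γ hβ hγ
      obtain ⟨h1, h2⟩ := hN hD T β γ b hβ hγ hb
      have hm := hM hD T β γ b hβ hγ hb
      exact ⟨b, hm, h1, ⟨natq S hD hI T β γ b hβ hγ hb hm n1 n2, hP hD T β γ b hβ hγ hb⟩, h2⟩)
    (fun _ _ _ hQ hb hs => swapF S hb hQ.1 hs) _ hS hInv
  obtain ⟨G, hG⟩ := hF g t hFl hS hb h0 hle hatt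
  refine ⟨G, b, hG, ?_, fun i => e3 i ▸ hb.ext i, fun i c hc x hx => ?_,
    fun i j hij c hc => hQ.1.disj i j hij c (e1 ▸ hc)⟩
  · rw [← funext hG.wall]
    exact hQ.2
  · obtain ⟨j, h⟩ := hQ.1.mat i c (e1 ▸ hc) x hx
    exact ⟨j, e2 j ▸ h⟩

end P073.Wf
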