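import Vale.Agent.P073Y.Wf.Sk2
import Vale.Agent.P073Y.Nt.Sk
import Vale.Agent.P073Y.Wb.Main
import Vale.Agent.P073Y.Wb.DriftU
import Vale.Agent.P073Y.Wb.Core
import Vale.Agent.P073Y.Wb.Swap2
import Vale.Agent.P073Y.Wb.Swap3

/-!
# Flattening of the last model, and the pattern of its walls
-/

open Set Metric Topology Filter
open scoped NNReal

namespace P073.Wf

open P073.Bd (Band I cl Match Sgn Comm Ext PwLip Chart Lev corner Gen1)
open P073.Wb

variable {X : Base} {c₀ : ℝ≥0} {Fr : Frame X c₀}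

theorem FlatU.toWb {lo hi : E3} {g : ConHomeo X.Ω (Icc lo hi)} {t : X.ι → ℝ} {lam : ℝ}
    (h : Wf.FlatU Fr g t lam) : Wb.FlatU Fr g t lam :=
  ⟨h.lt, h.pos, h.bd_eq, h.inside, h.sep, fun i x hx => ⟨(h.nat i x hx).1, (h.nat i x hx).2.1⟩⟩

/-- natural form of the half band on the frozen part -/
theorem FlatU.half {lo hi : E3} {g : ConHomeo X.Ω (Icc lo hi)} {t : X.ι → ℝ} {lam : ℝ}
    (hF : Wf.FlatU Fr g t lam) {b : X.ι → Band E3} (hb : Model Fr b) (i : X.ι) {x : E3}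
    (hx : x ∈ X.U) : (x ∈ (b i).B ↔ |g.toFun x (X.co i) - t i| ≤ lam) ∧
    (b i).u x = cl ((g.toFun x (X.co i) - t i) / lam) := by
  obtain ⟨h1, h2, -⟩ := hF.nat i x hx
  obtain ⟨e1, e2, -⟩ := hb.ext i
  have hl := hF.pos
  have hq : (g.toFun x (X.co i) - t i) / (2 * lam) = (g.toFun x (X.co i) - t i) / lam / 2 := by
    field_simp
  have hmem : x ∈ (b i).B ↔ x ∈ (Fr.nb i).half.B := by
    rw [← e1]; exact ⟨fun h => ⟨h, hx⟩, fun h => h.1⟩
  refine ⟨?_, ?_⟩
  · rw [hmem]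
    show x ∈ (Fr.nb i).B ∧ |(Fr.nb i).u x| ≤ 1 / 2 ↔ _
    rw [h1, h2, abs_cl_le_half, abs_div, abs_of_pos (by positivity : (0:ℝ) < 2 * lam),
      div_le_iff₀ (by positivity)]
    constructor
    · rintro ⟨-, h⟩; linarith
    · intro h; constructor <;> linarith
  · rw [e2 x hx]
    show cl (2 * (Fr.nb i).u x) = _
    rw [h2, hq, cl_half]

/-- the double arcs reach the faces or the frozen part inside one cell -/
theorem reach_of {b : X.ι → Band E3} (hb : Model Fr b) (h0 : extra b = ∅) (i j : X.ι)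
    (hij : i ≠ j) {x : E3} (hx : x ∈ (b i).W ∩ (b j).W) : ∃ Z, Z ⊆ (b i).W ∩ (b j).W ∧
    IsPreconnected Z ∧ x ∈ Z ∧ (Z ∩ (X.K.skel 2 ∪ X.U)).Nonempty ∧
    ∀ c, X.K.dim c = 3 → x ∈ X.K.ocell c → Z ⊆ X.K.cell c := by
  have := X.fin
  by_cases hx2 : x ∈ X.K.skel 2 ∪ X.U
  · exact ⟨{x}, singleton_subset_iff.2 hx, isPreconnected_singleton, rfl, ⟨x, rfl, hx2⟩,
      fun c _ hc => singleton_subset_iff.2 hc.1⟩
  · have hxΩ : x ∈ X.Ω := (hb.on i).sub hx.1.1
    have hxK : x ∈ X.K.carrier := by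
      rw [← X.cover] at hxΩ
      exact hxΩ.resolve_right fun h => hx2 (Or.inr h)
    obtain ⟨c, hc⟩ := X.K.exists_ocell hxK
    have hc3 : X.K.dim c = 3 := by
      have h1 := X.dim_le c
      by_contra h
      exact hx2 (Or.inl (X.K.mem_skel.2 ⟨c, by omega, hc.1⟩))
    have hfam : X.fam i ≠ X.fam j := fun h =>
      Set.disjoint_left.1 (hb.disj i j hij h) hx.1.1 hx.2.1
    obtain ⟨p, hp, q, hq, harc⟩ := arc1 hb h0 i j hfam
    have hpc : p ∉ X.K.ocell c := fun h =>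
      Set.disjoint_left.1 (X.ocell_disjoint hc3) h (X.bd_sub hp)
    have hne : p ≠ x := fun h => hpc (h ▸ hc)
    obtain ⟨A', ⟨hA', hsub⟩, -⟩ := (arcs (E := E3)).1 harc harc.left_mem hx hne
    obtain ⟨a, ha, A'', hA'', hsub', hK⟩ := (arcs (E := E3)).2.2.2.2.2.2 hA'
      (X.isOpen_ocell hc3).isClosed_compl hpc (fun h => h hc)
    have hin : A'' \ {a} ⊆ X.K.ocell c := fun y hy => by
      by_contra h
      exact hy.2 (hK ▸ (⟨hy.1, h⟩ : y ∈ A'' ∩ (X.K.ocell c)ᶜ))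
    have hac : a ∈ X.K.cell c := by
      have h1 : a ∈ closure (A'' \ {a, x}) := hA''.conBall.subset_closure_int hA''.left_mem
      refine (X.K.isClosed_cell c).closure_subset (closure_mono (fun y hy => ?_) h1)
      exact (hin ⟨hy.1, fun h => hy.2 (Or.inl h)⟩).1
    refine ⟨A'', hsub'.trans hsub, hA''.conBall.isConnected.isPreconnected, hA''.right_mem,
      ⟨a, hA''.left_mem, Or.inl ?_⟩, fun c' _ hc' => ?_⟩
    · have hab : a ∈ X.K.bd c := by
        by_contra h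
        exact ha.2 ⟨hac, h⟩
      obtain ⟨j', h1, -, h3⟩ := X.K.exists_face_bd hab
      exact X.K.mem_skel.2 ⟨j', by omega, h1.1⟩
    · rw [X.K.ocell_unique hc' hc]
      intro y hy
      by_cases h : y = a
      · exact h ▸ hac
      · exact (hin ⟨hy, h⟩).1

/-- the labels of the points on the wires -/
theorem lab_of {lo hi : E3} (g : ConHomeo X.Ω (Icc lo hi)) (t : X.ι → ℝ) {lam : ℝ}
    {b : X.ι → Band E3} (hF : Wb.FlatU Fr g t lam) (hS : State Fr (lvl g t)) (hb : Model Fr b)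
    (hle : Le X (fun i => (b i).W) (lvl g t))
    (hatt : ∀ i, ∀ p ∈ (b i).W ∩ X.K.skel 1, ∃ j, Att X (lvl g t) X.faces j p) :
    Lab g t (fun i => (b i).W) := by
  intro i p hp
  obtain ⟨j, hj⟩ := hatt i p hp
  refine ⟨j, hj.mem, fun L hL1 hL2 hL3 hL4 hL5 => ?_⟩
  have h1 := locattU g t hF hS j p hj L hL1 hL2 hL3 hL4
  have h2 := hle.pers (near g L) (fun φ hφ => ⟨hφ.1, hL5 φ hφ⟩) j p hp.2 h1
  by_contra hij
  exact Set.disjoint_left.1 (hb.wire_disj i j hij) ⟨hp.1, h2.mem⟩ hp.2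

theorem finF_of (hB' : Nt.FLATB) : FINF := by
  intro X c₀ Fr lo hi g t lam b hF hS hb h0 hle hatt
  have hB := Bd.bas E3
  have := X.finι
  have hl : (0:ℝ) < lam := hF.pos
  obtain ⟨hSb, hgen⟩ := mgen hb
  have himg : g.toFun '' X.bd = frontier (Icc lo hi) := by
    rw [hF.bd_eq]
    ext y
    constructor
    · rintro ⟨x, hx, rfl⟩; exact hx.2
    · intro hy
      have hy' : y ∈ Icc lo hi := isClosed_Icc.frontier_subset hy
      exact ⟨g.invFun y, ⟨g.mapsTo_inv hy', by rwa [g.right_inv hy']⟩, g.right_inv hy'⟩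
  let φ : ConHomeo X.bd (frontier (Icc lo hi)) :=
    (g.restr X.ball.locCone_bdry.conicalSet X.bd_subset).cast rfl himg
  have hWbd : ∀ i, (b i).W ∩ X.bd = (Fr.nb i).W ∩ X.bd := fun i => by
    rw [← hSb.frozen i, inter_assoc, inter_eq_right.2 X.bd_sub]
  obtain ⟨G, hGb, hGn⟩ := hB' b t X.co φ X.ball hF.lt hl
    (fun i => ⟨X.co_ne_two i, by linarith [(hF.inside i).1], by linarith [(hF.inside i).2]⟩)
    (fun i j hij => ⟨hb.comm i j hij, fun h => ⟨hb.disj i j hij ((X.co_eq_iff i j).1 h),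
      by linarith [hF.sep i j hij ((X.co_eq_iff i j).1 h)]⟩,
      fun h => arc1 hb h0 i j fun h' => h ((X.co_eq_iff i j).2 h')⟩)
    (fun i => ⟨hb.on i, Sw3.keeps_bd hb i, by rw [hWbd i]; exact hb.disc i, fun x hx =>
      hF.half hb i (X.bd_sub hx)⟩)
  have hlvl : lvl G t = fun i => (b i).W := by
    funext i
    rw [hB.on_W (hb.on i)]
    ext x
    refine and_congr_right fun hx => ?_
    rw [(hGn i x hx).2, cl_eq_zero', div_eq_zero_iff, sub_eq_zero]
    simp [hl.ne']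
  have hlab := lab_of g t hF.toWb hS hb hle hatt
  refine ⟨G, hGb, hb.on, hGn, fun i => by rw [hlvl], hb.keep, Sw3.keeps_U hb, Sw3.keeps_bd hb,
    hb.comm, fun i x hx => ?_, hlvl ▸ hle, hlvl ▸ hlab, fun i => by rw [hlvl]; exact hgen i,
    fun i j hij => by rw [hlvl]; exact ⟨hb.wire_disj i j hij, hb.fin i j hij⟩,
    fun i c => by rw [hlvl]; exact hb.touch i c,
    fun i j hij x hx => by rw [hlvl] at hx ⊢; exact reach_of hb h0 i j hij hx, ?_, ?_⟩
  · rw [← (hGn i x (X.U_subset hx)).2, (hF.half hb i hx).2]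
  · intro c s hs
    obtain ⟨𝒞, h1, h2⟩ := (Bd.lipg (E := E3)).2 (L := 4 * X.L c) s b (X.K.isClosed_cell c)
      (fun i _ => ⟨(hb.on i).upl.1.mono (X.cell_subset c), (hb.on i).ok.cpt.isClosed, hb.lip i c,
        fun x hx hxB => (hb.on i).out x (X.cell_subset c hx) hxB⟩)
      (fun i hi j hj hij => hb.disj i j hij (hs i hi j hj))
    classical
    refine ⟨𝒞.image (· ∩ X.K.cell c), ?_, fun x hx => ?_⟩
    · intro Y hY
      obtain ⟨Y', hY', rfl⟩ := Finset.mem_image.1 hY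
      refine ⟨(h1 Y' hY').1.inter (X.K.isClosed_cell c), fun x hx y hy => ?_⟩
      have := (h1 Y' hY').2 hx.1 hy.1
      simp only at this ⊢
      rw [← Finset.sum_congr rfl fun i _ => (hGn i x (X.cell_subset c hx.2)).2,
        ← Finset.sum_congr rfl fun i _ => (hGn i y (X.cell_subset c hy.2)).2]
      exact this
    · obtain ⟨Y, hY, hxY⟩ := mem_iUnion₂.1 (h2 hx)
      exact mem_iUnion₂.2 ⟨_, Finset.mem_image_of_mem _ hY, hxY, hx⟩
  · intro i o κ ho h1 h2 x hx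
    obtain ⟨d1, d2⟩ := driftU g t i hF.toWb hb hlab ho h1 h2 x hx
    have hu := (hGn i x hx).2
    refine ⟨fun a1 a2 => ?_, fun a1 a2 => ?_⟩
    · have := cl_eq_one (hu ▸ d1 a1 a2)
      rw [le_div_iff₀ hl] at this
      linarith
    · have := cl_eq_neg_one (hu ▸ d2 a1 a2)
      rw [div_le_iff₀ hl] at this
      linarith

theorem joined_of_arcs {K : RCx E3} {T : Set E3} (h : Arcs K T) {φ : K.ι} (hφ : K.dim φ = 2) :
    Joined (T ∩ K.cell φ) (K.bd φ) := by
  obtain ⟨𝒜, h1, -, h3⟩ := h φ hφ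
  intro x hx
  obtain ⟨a, ha, hxa⟩ := mem_iUnion₂.1 (h1 ▸ hx)
  obtain ⟨p, q, harc, hb⟩ := h3 a ha
  exact ⟨a, h1 ▸ subset_biUnion_of_mem (u := fun a => a) ha,
    harc.conBall.isConnected.isPreconnected, hxa, p, hb ▸ mem_insert p {q}⟩

/-- the pattern of the walls of a normalised state -/
theorem pat_of {D : X.ι → Set E3} {T : Trace Fr D} {β : T.α → Band E3} {γ : T.κ → Band E3}
    {b : X.ι → Band E3} (S : State Fr D) (F : Faces T β) (C : Cells T β γ) (W : Walls T γ b) :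
    Pat X fun i => (b i).W :=
  ⟨fun i _ hφ => joined_of_arcs (arcs_of S F C W i) hφ, fun i c hc => discs_of S F C W i c hc⟩

end P073.Wf
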