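import Vale.Agent.P073Y.Wf.Sk2
import Vale.Agent.P073Y.Wb.Init2

/-!
# The first state with softly frozen cells
-/

open Set Metric Topology Filter
open scoped NNReal

namespace P073.Wf

open P073.Bd (Band I cl Match Sgn Comm Ext PwLip Chart Lev corner Gen1)
open P073.Wb P073.Wb.Init2 P073.Bd.Bas1

namespace RawF

variable {X : Base} {c₀ : ℝ≥0} {lo hi : E3} {g : ConHomeo X.Ω (Icc lo hi)} {t : X.ι → ℝ}
  {lam : ℝ≥0} {fro : Set X.K.ι} {w : X.ι → Band E3}

theorem U_dom : X.U ⊆ dom X fro := subset_union_left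

theorem cell_dom {c : X.K.ι} (hc : c ∈ fro) : X.K.cell c ⊆ dom X fro :=
  (subset_biUnion_of_mem (u := X.K.cell) hc).trans subset_union_right

theorem dom_sub : dom X fro ⊆ X.Ω :=
  union_subset (X.cover ▸ subset_union_right) (iUnion₂_subset fun c _ =>
    (X.K.cell_subset_carrier c).trans (X.cover ▸ subset_union_left))

theorem cell_U {c : X.K.ι} {x : E3} (hx : x ∈ X.K.ocell c) (hU : x ∈ X.U) : X.K.cell c ⊆ X.U :=
  (X.sub.cell_subset hx ⟨X.K.cell_subset_carrier _ hx.1, hU⟩).trans inter_subset_right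

variable (R : RawF X c₀ g t lam fro w)

include R

theorem four_pos : (0:ℝ) < 4 * lam := mul_pos _root_.four_pos R.pos

theorem W_eq (i : X.ι) : (w i).W = lvl g t i ∩ dom X fro := by
  have h : ∀ x ∈ dom X fro, ((w i).u x = 0 ↔ g.toFun x (X.co i) = t i) := fun x hx => by
    rw [(R.nat i x hx).2, cl_eq_zero, div_eq_zero_iff, or_iff_left R.four_pos.ne', sub_eq_zero]
  refine Subset.antisymm (fun x hx => ?_) fun x hx => ⟨(R.nat i x hx.2).1.2 ?_, (h x hx.2).2 hx.1.2⟩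
  · have h1 := (R.on i).sub hx.1
    exact ⟨⟨dom_sub h1, (h x h1).1 hx.2⟩, h1⟩
  · rw [hx.1.2, sub_self, abs_zero]
    exact R.four_pos.le

theorem M_lvl (i : X.ι) {x : E3} (hx : x ∈ (w i).B) : (w i).M (x, 0) ∈ lvl g t i :=
  (R.W_eq i ▸ Bd.Bas2.M_mem_W (R.on i).ok hx : _ ∈ lvl g t i ∩ dom X fro).1

theorem cut_W (i : X.ι) : ((w i).cut X.U).half.W = lvl g t i ∩ X.U := by
  rw [half_W]
  refine Subset.antisymm (fun x hx => ⟨?_, hx.1.2⟩) fun x hx => ?_
  · exact (R.W_eq i ▸ (⟨hx.1.1, hx.2⟩ : x ∈ (w i).W) : x ∈ lvl g t i ∩ dom X fro).1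
  · have h : x ∈ (w i).W := R.W_eq i ▸ ⟨hx.1, U_dom hx.2⟩
    exact ⟨⟨h.1, hx.2⟩, h.2⟩

theorem keep_cut (i : X.ι) (c : X.K.ι) : ((w i).cut X.U).Keeps (X.K.cell c) := by
  intro x hx s hs hc
  obtain ⟨j, h1, h2⟩ := X.K.exists_face hc
  exact h2 (R.keep i j (R.froU j (cell_U h1 hx.2)) x hx.1 s hs h1.1)

theorem B_disj {i j : X.ι} (hij : i ≠ j) (hf : X.fam i = X.fam j) : Disjoint (w i).B (w j).B := by
  refine disjoint_left.2 fun x hx hx' => ?_
  have a1 := abs_le.1 ((R.nat i x ((R.on i).sub hx)).1.1 hx)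
  have a2 := abs_le.1 ((R.nat j x ((R.on j).sub hx')).1.1 hx')
  rw [← co_eq.2 hf] at a2
  rcases lt_abs.1 (R.sep i j hij hf) with h | h <;> linarith [a1.1, a1.2, a2.1, a2.2]

theorem lvl_disj {i j : X.ι} (hij : i ≠ j) (hf : X.fam i = X.fam j) :
    Disjoint (lvl g t i) (lvl g t j) := by
  refine disjoint_left.2 fun x hx hx' => ?_
  have a := R.sep i j hij hf
  rw [← hx.2, ← hx'.2, co_eq.2 hf, sub_self, abs_zero] at a
  linarith [R.four_pos]

theorem uniq {i j : X.ι} (hij : i ≠ j) : Disjoint (lvl g t i ∩ lvl g t j) (X.K.skel 1) := by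
  by_cases hf : X.fam i = X.fam j
  · rw [(R.lvl_disj hij hf).inter_eq]
    exact empty_disjoint _
  · exact (R.gen₂ i j hf).1

/-- the bands of different walls are disjoint on the soft wires -/
theorem wire_disj {i j : X.ι} (hij : i ≠ j) {e : X.K.ι} (he : e ∈ fro) (hd : X.K.dim e ≤ 1)
    {x : E3} (hx : x ∈ (w i).B) (hx' : x ∈ (w j).B) (hc : x ∈ X.K.cell e) : False := by
  have z := Bd.Bas2.zero_mem_I
  have c0 := Bd.Bas2.M_mem_W (R.on i).ok hx
  have c1 := (R.comm i j hij x hx 0 z).1.2 hx'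
  obtain ⟨c2, c3⟩ := R.comm j i hij.symm _ c1 0 z
  have c4 : (w j).M ((w i).M (x, 0), 0) ∈ (w i).W := ⟨c2.2 c0.1, (c3 c0.1).1.trans c0.2⟩
  rw [R.W_eq] at c4
  exact disjoint_left.1 (R.uniq hij) ⟨c4.1, R.M_lvl j c1⟩
    (X.K.cell_subset_skel hd (R.keep j e he _ c1 0 z (R.keep i e he x hx 0 z hc)))

theorem comm_cut {i j : X.ι} (hij : i ≠ j) : Comm ((w i).cut X.U) ((w j).cut X.U) := by
  intro x hx s hs
  obtain ⟨h1, h2⟩ := R.comm i j hij x hx.1 s hs
  exact ⟨⟨fun h => ⟨h1.1 h.1, hx.2⟩, fun h => ⟨h1.2 h.1, R.keepU i x hx.1 s hs hx.2⟩⟩,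
    fun h => h2 h.1⟩

theorem edge (i : X.ι) {p : E3} (hp : p ∈ lvl g t i) {c : X.K.ι} (hc : X.K.dim c ≤ 1)
    (hpc : p ∈ X.K.cell c) : X.K.dim c = 1 ∧ p ∈ X.K.ocell c := by
  have hn : p ∉ X.K.skel 0 := disjoint_left.1 (R.gen i).vert hp
  have h1 : X.K.dim c = 1 := by
    by_contra h
    exact hn (X.K.cell_subset_skel (by omega) hpc)
  exact ⟨h1, hpc, fun h => hn (X.K.bd_subset_skel h1.le h)⟩

theorem lip_u (i : X.ι) {c : X.K.ι} (hc : c ∈ fro) {x y : E3} (hx : x ∈ (w i).B)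
    (hx' : x ∈ X.K.cell c) (hy : y ∈ (w i).B) (hy' : y ∈ X.K.cell c) :
    |(w i).u x - (w i).u y| ≤ X.L c / 4 * dist x y := by
  have a := R.nat i x (cell_dom hc hx')
  have b := R.nat i y (cell_dom hc hy')
  have h1 := (R.lip i c hc).dist_le_mul x ⟨hx', a.1.1 hx⟩ y ⟨hy', b.1.1 hy⟩
  rw [Real.dist_eq, NNReal.coe_mul] at h1
  rw [a.2, b.2]
  refine (abs_cl_sub _ _).trans ?_
  rw [← sub_div, sub_sub_sub_cancel_right, abs_div, abs_of_pos R.four_pos, div_le_iff₀ R.four_pos]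
  linarith

theorem lip_half (i : X.ι) {c : X.K.ι} (hc : c ∈ fro) {x y : E3} (hx : x ∈ (w i).B)
    (hx' : x ∈ X.K.cell c) (hy : y ∈ (w i).B) (hy' : y ∈ X.K.cell c) :
    2 * |(w i).half.u x - (w i).half.u y| ≤ X.L c * dist x y := by
  have a := R.lip_u i hc hx hx' hy hy'
  have b : |(w i).half.u x - (w i).half.u y| ≤ _ := abs_cl_sub _ _
  rw [← mul_sub, abs_mul, abs_two] at b
  linarith

theorem half_u (i : X.ι) {x : E3} (hx : x ∈ dom X fro) :
    (w i).half.u x = cl ((g.toFun x (X.co i) - t i) / (2 * lam)) := by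
  have hl : (0:ℝ) < lam := R.pos
  show cl (2 * (w i).u x) = _
  rw [(R.nat i x hx).2, cl_two]
  congr 1
  field_simp
  ring

theorem half_B (i : X.ι) {x : E3} (hx : x ∈ dom X fro) :
    x ∈ (w i).half.B ↔ |g.toFun x (X.co i) - t i| ≤ 2 * lam := by
  have hw := R.four_pos
  have a := R.nat i x hx
  have b : |g.toFun x (X.co i) - t i| ≤ 4 * lam →
      (|(w i).u x| ≤ 1 / 2 ↔ |g.toFun x (X.co i) - t i| ≤ 2 * lam) := fun h => by
    rw [a.2, cl_of_mem ((div_mem hw).2 h), abs_div, abs_of_pos hw, div_le_iff₀ hw]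
    constructor <;> intro <;> linarith
  refine ⟨fun h => (b (a.1.1 h.1)).1 h.2, fun h => ?_⟩
  have c : |g.toFun x (X.co i) - t i| ≤ 4 * lam := by linarith
  exact ⟨a.1.2 c, (b c).2 h⟩

/-- the zone of a point of a soft wire -/
theorem zone (i : X.ι) {p : E3} (hp : p ∈ lvl g t i) {e : X.K.ι} (he : e ∈ fro)
    (hd : X.K.dim e = 1) (hpe : p ∈ X.K.cell e) : ((w i).restr (X.K.cell e) {p}).Ok ∧
      ((w i).restr (X.K.cell e) {p}).In (X.K.cell e) ∧
      ((w i).restr (X.K.cell e) {p}).B ⊆ X.K.ocell e ∧ ((w i).restr (X.K.cell e) {p}).W = {p} ∧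
      LipschitzOnWith (X.L e) ((w i).restr (X.K.cell e) {p}).u
        ((w i).restr (X.K.cell e) {p}).B := by
  have hfin : ((w i).W ∩ X.K.cell e).Finite := (R.gen i).fin.subset fun x hx =>
    ⟨(R.W_eq i ▸ hx.1 : x ∈ lvl g t i ∩ dom X fro).1, X.K.cell_subset_skel hd.le hx.2⟩
  obtain ⟨a1, a2, a3⟩ := (Bd.bas E3).restr (V := {p}) (R.on i).ok (on_in (R.on i)) (cell_dom he)
    (X.K.isCompact_cell e) (X.K.locCone_cell e) (R.keep i e he)
    (singleton_subset_iff.2 ⟨R.W_eq i ▸ ⟨hp, cell_dom he hpe⟩, hpe⟩) isCompact_singleton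
    (Icc_self p ▸ locCone_Icc_pi p p) (hfin.subset sdiff_subset).isClosed
  refine ⟨a1, a2, fun x hx => ⟨hx.1.2, fun hb => ?_⟩, a3, ?_⟩
  · obtain ⟨j, hj, hxj, -⟩ := X.K.exists_face_bd hb
    have hj0 : X.K.dim j ≤ 0 := by have := X.K.dim_lt hxj; omega
    exact disjoint_left.1 (R.gen i).vert (R.M_lvl i hx.1.1) (X.K.cell_subset_skel hj0
      (R.keep i j (R.face e he j (hxj.trans (X.K.bd_subset e))) x hx.1.1 0 Bd.Bas2.zero_mem_I hj.1))
  · refine LipschitzOnWith.of_dist_le_mul fun x hx y hy => ?_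
    refine (R.lip_u i he hx.1.1 hx.1.2 hy.1.1 hy.1.2).trans ?_
    nlinarith [mul_nonneg (X.L e).coe_nonneg (dist_nonneg (x := x) (y := y))]

theorem exists_z (ζ : X.K.ι → E3 → Band E3) (p : E3) : ∃ zp : Band E3, ∀ e, p ∈ X.K.ocell e →
    X.K.dim e = 1 → (e ∉ fro → zp = ζ e p) ∧
      ∀ i, e ∈ fro → p ∈ lvl g t i → zp = (w i).restr (X.K.cell e) {p} := by
  by_cases h1 : ∃ e, p ∈ X.K.ocell e
  · obtain ⟨e, hpe⟩ := h1
    by_cases h2 : ∃ i, e ∈ fro ∧ p ∈ lvl g t i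
    · obtain ⟨i, hU, hi⟩ := h2
      refine ⟨(w i).restr (X.K.cell e) {p}, fun e' h' he => ?_⟩
      obtain rfl := X.K.ocell_unique hpe h'
      refine ⟨fun h => absurd hU h, fun j _ hj => ?_⟩
      by_cases hij : i = j
      · rw [hij]
      · exact absurd (X.K.cell_subset_skel he.le hpe.1) (disjoint_left.1 (R.uniq hij) ⟨hi, hj⟩)
    · refine ⟨ζ e p, fun e' h' _ => ?_⟩
      obtain rfl := X.K.ocell_unique hpe h'
      exact ⟨fun _ => rfl, fun j hU hj => absurd ⟨j, hU, hj⟩ h2⟩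
  · exact ⟨⟨∅, fun _ => 0, Prod.fst⟩, fun e h => absurd ⟨e, h⟩ h1⟩

theorem bd_eq' (i : X.ι) :
    {x ∈ X.bd | g.toFun x (X.co i) = t i} = ((w i).cut X.U).half.W ∩ X.bd := by
  rw [R.cut_W]
  exact Subset.antisymm (fun x hx => ⟨⟨⟨X.ball.1 hx.1, hx.2⟩, X.bd_sub hx.1⟩, hx.1⟩)
    fun x hx => ⟨hx.2, hx.1.1.2⟩

theorem t_mem (i : X.ι) : t i ∈ Ioo (lo (X.co i)) (hi (X.co i)) :=
  ⟨by linarith [(R.inside i).1, R.four_pos], by linarith [(R.inside i).2, R.four_pos]⟩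

theorem disc (i : X.ι) : ConBall 2 (lvl g t i) {x ∈ X.bd | g.toFun x (X.co i) = t i} := by
  obtain ⟨-, hfr, hsec, -⟩ := Cut.box R.lt
  have hfs : frontier (Icc lo hi) ⊆ Icc lo hi := fun y hy => ((hfr y).1 hy).1
  have h1 := (hsec (X.co i) (t i) (R.t_mem i)).image g.symm fun _ hy => hy.1
  rw [ConHomeo.symm_toFun, pre_eq g fun _ hy => hy.1, pre_eq g fun _ hy => hfs hy.1] at h1
  convert h1 using 1
  · exact Subset.antisymm (fun x hx => ⟨hx.1, g.mapsTo hx.1, hx.2⟩) fun x hx => ⟨hx.1, hx.2.2⟩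
  · rw [R.bd_eq]
    exact Subset.antisymm (fun x hx => ⟨hx.1.1, hx.1.2, hx.2⟩) fun x hx => ⟨⟨hx.1, hx.2.1⟩, hx.2.2⟩

theorem cross {i j : X.ι} (hi' : X.fam i = true) (hj' : X.fam j = false) : ∃ p q, p ≠ q ∧
    ((w i).cut X.U).half.W ∩ ((w j).cut X.U).half.W ∩ X.bd = {p, q} := by
  obtain ⟨-, hfr, -, hline⟩ := Cut.box R.lt
  have hfs : frontier (Icc lo hi) ⊆ Icc lo hi := fun y hy => ((hfr y).1 hy).1
  have ci : X.co i = 0 := by simp [Base.co, hi']
  have cj : X.co j = 1 := by simp [Base.co, hj']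
  obtain ⟨a1, a2⟩ := hline (t i) (ci ▸ R.t_mem i) (t j) (cj ▸ R.t_mem j)
  refine ⟨g.invFun ![t i, t j, lo 2], g.invFun ![t i, t j, hi 2],
    fun h => a1.ne (g.symm.injOn a1.left_mem.1 a1.right_mem.1 h), ?_⟩
  rw [← image_pair, ← a2, pre_eq g fun _ hy => hfs hy.1, R.cut_W, R.cut_W, R.bd_eq]
  refine Subset.antisymm (fun x hx => ⟨hx.2.1, hx.2.2, ci ▸ hx.1.1.1.2, cj ▸ hx.1.2.1.2⟩)
    fun x hx => ?_
  have hxU : x ∈ X.U := X.bd_sub (R.bd_eq ▸ ⟨hx.1, hx.2.1⟩)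
  exact ⟨⟨⟨⟨hx.1, ci ▸ hx.2.2.1⟩, hxU⟩, ⟨hx.1, cj ▸ hx.2.2.2⟩, hxU⟩, hx.1, hx.2.1⟩

theorem side (i : X.ι) :
    ConBall 2 {x ∈ X.bd | 0 ≤ ((w i).cut X.U).half.u x} (((w i).cut X.U).half.W ∩ X.bd) ∧
      ConBall 2 {x ∈ X.bd | ((w i).cut X.U).half.u x ≤ 0} (((w i).cut X.U).half.W ∩ X.bd) := by
  have hle : lo ≤ hi := fun k => (R.lt k).le
  have a := bside Cut.cut2 (u := fun x => g.toFun x (X.co i)) X.ball
    ((continuous_apply (X.co i)).comp_continuousOn g.cont) (R.disc i)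
    (g.mapsTo_inv (left_mem_Icc.2 hle))
    (by
      show g.toFun (g.invFun lo) (X.co i) < _
      rw [g.right_inv (left_mem_Icc.2 hle)]
      exact (R.t_mem i).1)
    (g.mapsTo_inv (right_mem_Icc.2 hle))
    (by
      show _ < g.toFun (g.invFun hi) (X.co i)
      rw [g.right_inv (right_mem_Icc.2 hle)]
      exact (R.t_mem i).2)
  have h2 : (0:ℝ) < 2 * lam := by linarith [R.four_pos]
  have hu : ∀ x ∈ X.bd, ((w i).cut X.U).half.u x = cl ((g.toFun x (X.co i) - t i) / (2 * lam)) :=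
    fun x hx => R.half_u i (U_dom (X.bd_sub hx))
  rw [← R.bd_eq']
  convert a using 2 <;> refine Set.ext fun x => and_congr_right fun hx => ?_
  · rw [hu x hx, cl_nonneg, le_div_iff₀ h2, zero_mul, sub_nonneg]
  · rw [hu x hx, cl_nonpos, div_le_iff₀ h2, zero_mul, sub_nonpos]

end RawF

/-- the first state -/
theorem initF : INITF := by
  intro X c₀ lo hi g t lam fro w ζ R hZ
  have := X.finι
  have hl : (0:ℝ) < lam := R.pos
  have z0 := Bd.Bas2.zero_mem_I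
  have hon : ∀ i, ((w i).cut X.U).On X.U := fun i =>
    (Bd.bas E3).cut (R.on i) RawF.U_dom X.U_cpt X.U_loc (R.keepU i)
  have hW : ∀ i, (w i).half.W = lvl g t i ∩ dom X fro := fun i => by rw [half_W, R.W_eq]
  choose z hz using R.exists_z ζ
  let P : Set E3 := (⋃ i, lvl g t i) ∩ X.K.skel 1
  have hP : ∀ p ∈ P, ∃ i e, p ∈ lvl g t i ∧ X.K.dim e = 1 ∧ p ∈ X.K.ocell e := by
    rintro p ⟨h1, h2⟩
    obtain ⟨i, hi⟩ := mem_iUnion.1 h1
    obtain ⟨c, hc, hpc⟩ := X.K.mem_skel.1 h2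
    exact ⟨i, c, hi, R.edge i hi hc hpc⟩
  have hwire : ∀ p ∈ P, ∀ e, X.K.dim e = 1 → p ∈ X.K.ocell e → (z p).Ok ∧
      (z p).In (X.K.cell e) ∧ (z p).B ⊆ X.K.ocell e ∧ (z p).W = {p} ∧
      LipschitzOnWith (X.L e) (z p).u (z p).B := by
    intro p hp e he hpe
    by_cases hU : e ∈ fro
    · obtain ⟨i, hi⟩ := mem_iUnion.1 hp.1
      rw [(hz p e hpe he).2 i hU hi]
      exact R.zone i hi hU he hpe.1
    · rw [(hz p e hpe he).1 hU]
      exact (hZ e he hU).1 p ⟨hp.1, hpe.1⟩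
  have hzw : ∀ i, ∀ e ∈ fro, X.K.dim e ≤ 1 → ∀ x ∈ (w i).half.B, x ∈ X.K.cell e →
      (w i).M (x, 0) ∈ P ∧ (w i).M (x, 0) ∈ X.K.cell e ∧ x ∈ (z ((w i).M (x, 0))).half.B := by
    intro i e he hd x hx hc
    have a1 := R.M_lvl i hx.1
    have a2 := R.keep i e he x hx.1 0 z0 hc
    obtain ⟨a3, a4⟩ := R.edge i a1 hd a2
    refine ⟨⟨mem_iUnion.2 ⟨i, a1⟩, X.K.cell_subset_skel hd a2⟩, a2, ?_⟩
    rw [(hz _ e a4 a3).2 i he a1]
    exact ⟨⟨⟨hx.1, hc⟩, rfl⟩, hx.2⟩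
  let Fr : Frame X 0 :=
    { P := P
      z := z
      nb := fun i => ((w i).cut X.U).half
      Pfin := by
        show ((⋃ i, lvl g t i) ∩ X.K.skel 1).Finite
        rw [iUnion_inter]
        exact finite_iUnion fun i => (R.gen i).fin
      wire := fun p hp =>
        let ⟨_, e, _, a1, a2⟩ := hP p hp
        ⟨e, a1, hwire p hp e a1 a2⟩
      zdisj := by
        intro p hp q hq hne
        obtain ⟨i, e, hi, a1, a2⟩ := hP p hp
        obtain ⟨j, e', hj, b1, b2⟩ := hP q hq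
        refine disjoint_left.2 fun x hx hx' => ?_
        obtain rfl := X.K.ocell_unique ((hwire p hp e a1 a2).2.2.1 hx)
          ((hwire q hq e' b1 b2).2.2.1 hx')
        by_cases hU : e ∈ fro
        · rw [(hz p e a2 a1).2 i hU hi] at hx
          rw [(hz q e b2 a1).2 j hU hj] at hx'
          by_cases hij : i = j
          · subst hij
            exact hne ((mem_singleton_iff.1 hx.2).symm.trans hx'.2)
          · exact R.wire_disj hij hU a1.le hx.1.1 hx'.1.1 hx.1.2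
        · rw [(hz p e a2 a1).1 hU] at hx
          rw [(hz q e b2 a1).1 hU] at hx'
          exact disjoint_left.1 ((hZ e a1 hU).2 p ⟨hp.1, a2.1⟩ q ⟨hq.1, b2.1⟩ hne) hx hx'
      nb_on := fun i => half_on (hon i)
      nb_keep := fun i c x hx s hs hc => R.keep_cut i c x hx.1 _ (half_mem hs) hc
      nb_keep_bd := fun i x hx s hs hb => R.keepbd i x hx.1.1 _ (half_mem hs) hb
      nb_comm := fun i j hij => half_comm (hon i).ok (hon j).ok (R.comm_cut hij)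
      nb_disj := fun i j hij hf => (R.B_disj hij hf).mono (fun _ h => h.1.1) fun _ h => h.1.1
      nb_side := R.side
      nb_wire := by
        rintro i x ⟨hx, hs⟩
        obtain ⟨c, hc, hxc⟩ := X.K.mem_skel.1 hs
        obtain ⟨e, h1, h2⟩ := X.K.exists_face hxc
        have h3 := RawF.cell_U h1 hx.1.2
        obtain ⟨a1, a2, a3⟩ := hzw i e (R.froU e h3) ((X.K.dim_le h2).trans hc) x
          ⟨hx.1.1, hx.2⟩ h1.1
        exact ⟨_, ⟨a1, R.cut_W i ▸ ⟨R.M_lvl i hx.1.1, h3 a2⟩⟩, a3⟩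
      nb_match := by
        rintro i p ⟨hp, hp'⟩
        rw [R.cut_W] at hp'
        obtain ⟨-, e, -, a1, a2⟩ := hP p hp
        have h3 := RawF.cell_U a2 hp'.2
        rw [(hz p e a2 a1).2 i (R.froU e h3) hp'.1]
        exact ⟨fun x hx => ⟨⟨hx.1.1.1, h3 hx.1.1.2⟩, hx.2⟩,
          fun x _ _ => ⟨1, Or.inl rfl, (one_mul _).symm, fun s _ => by rw [one_mul]; rfl⟩⟩
      nb_att := fun i => by
        rw [R.cut_W]
        exact R.att i
      nb_att₂ := fun i j hij => by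
        rw [R.cut_W, R.cut_W, ← inter_inter_distrib_right]
        exact R.att₂ i j hij
      nb_arc := by
        intro i φ hφ x hx
        rw [R.cut_W] at hx ⊢
        have hU := RawF.cell_U hx.2 hx.1.2
        obtain ⟨Z, a1, a2⟩ := R.arc i φ hφ hU x ⟨hx.1.1, hx.2.1⟩
        exact ⟨Z, fun y hy => ⟨⟨(a1 hy).1, hU (a1 hy).2⟩, (a1 hy).2⟩, a2⟩
      nb_cross := by
        intro i j hf
        cases hi' : X.fam i <;> cases hj' : X.fam j
        · exact absurd (hi'.trans hj'.symm) hf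
        · rw [inter_comm ((w i).cut X.U).half.W]
          exact R.cross hj' hi'
        · exact R.cross hi' hj'
        · exact absurd (hi'.trans hj'.symm) hf
      nb_lip := by
        intro i φ _ hU
        refine LipschitzOnWith.of_dist_le_mul fun x hx y hy => ?_
        have a := R.lip_half i (R.froU φ hU) hx.1.1.1 hx.2 hy.1.1.1 hy.2
        have b := abs_nonneg ((w i).half.u x - (w i).half.u y)
        show |(w i).half.u x - (w i).half.u y| ≤ _
        linarith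
      L_ge := fun c _ _ => by simp }
  let S : Soft Fr c₀ :=
    { fro := fro
      Y := dom X fro
      ν := fun i => (w i).half
      face := R.face
      sub := fun _ hc => RawF.cell_dom hc
      on := fun i => half_on (R.on i)
      keep := fun i c hc x hx s hs h => R.keep i c hc x hx.1 _ (half_mem hs) h
      ext := fun i => ⟨Subset.antisymm (fun x hx => ⟨⟨hx.1.1, hx.2⟩, hx.1.2⟩)
        fun x hx => ⟨⟨hx.1.1, hx.2⟩, hx.1.2⟩, fun _ _ => rfl, fun _ _ _ _ => rfl⟩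
      disj := fun i j hij c hc hU =>
        (R.disj i j hij c hc hU).mono_left
          (inter_subset_inter (fun _ h => h.1) fun _ h => h.1)
      wire := by
        rintro i e he hd x ⟨hx, hc⟩
        obtain ⟨a1, a2, a3⟩ := hzw i e he hd x hx hc
        exact ⟨_, ⟨a1, (hW i).ge ⟨R.M_lvl i hx.1, RawF.cell_dom he a2⟩⟩, a3⟩
      mt := by
        rintro i c hc p ⟨⟨hp, hp'⟩, hpc⟩
        rw [hW] at hp'
        obtain ⟨-, e, -, a1, a2⟩ := hP p hp
        have h3 := (hz p e a2 a1).2 i (R.face c hc e (X.K.cell_subset_of_mem a2 hpc)) hp'.1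
        show (z p).half.B ⊆ _ ∧ Match (z p).half _
        rw [h3]
        exact ⟨fun x hx => ⟨hx.1.1.1, hx.2⟩,
          fun x _ _ => ⟨1, Or.inl rfl, (one_mul _).symm, fun s _ => by rw [one_mul]; rfl⟩⟩
      cvx := R.cvx
      discs := fun i c hc hd => by
        rw [hW, inter_assoc, inter_eq_right.2 (RawF.cell_dom hc)]
        exact R.discs i c hc hd
      lip₂ := fun i φ hφ _ => LipschitzOnWith.of_dist_le_mul fun x hx y hy => by
        have a := R.lip_half i hφ hx.1.1 hx.2 hy.1.1 hy.2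
        have b := abs_nonneg ((w i).half.u x - (w i).half.u y)
        rw [Real.dist_eq]
        linarith
      lip₃ := fun i c hc _ => LipschitzOnWith.of_dist_le_mul fun x hx y hy => by
        rw [Real.dist_eq, ← mul_sub, abs_mul, abs_two]
        exact R.lip_half i hc hx.1.1 hx.2 hy.1.1 hy.2
      L_ge := fun c hd hc _ => R.L_ge c hd hc }
  refine ⟨Fr, S, ⟨R.lt, hl, R.bd_eq, fun i => ⟨by linarith [(R.inside i).1],
    by linarith [(R.inside i).2]⟩, fun i j hij hf => by linarith [R.sep i j hij hf],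
    fun i x hx => ⟨?_, R.half_u i (RawF.U_dom hx), trivial⟩⟩,
    ⟨fun i _ hx => hx.1, fun i => R.bd_eq' i ▸ R.disc i, fun i => (R.cut_W i).symm,
      fun _ _ => R.lvl_disj, fun i x hx => ⟨mem_iUnion.2 ⟨i, hx.1⟩, hx.2⟩, fun _ _ => R.uniq,
      fun i => (R.gen i).lev, fun i => (R.gen i).two, fun i j hij => ?_⟩,
    fun i c hc _ x hx => mem_iUnion.2 ⟨i, ?_⟩, rfl, fun _ => rfl, fun _ => rfl, rfl,
    fun e he hU p hp => ?_⟩
  · rw [← R.half_B i (RawF.U_dom hx)]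
    exact ⟨fun h => ⟨h.1.1, h.2⟩, fun h => ⟨⟨h.1, hx⟩, h.2⟩⟩
  · by_cases hf : X.fam i = X.fam j
    · rw [(R.lvl_disj hij hf).inter_eq, empty_inter]
      exact finite_empty
    · exact (R.gen₂ i j hf).2
  · exact hW i ▸ ⟨hx.1, RawF.cell_dom hc hx.2⟩
  · obtain ⟨i, hi⟩ := mem_iUnion.1 hp.1.1
    exact (hz p e (R.edge i hi he.le hp.2).2 he).1 hU

end P073.Wf
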