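import Vale.Agent.P073Y.Wb.All
import Vale.Agent.P073Y.Wf.Faces
import Vale.Agent.P073Y.Wf.Cells
import Vale.Agent.P073Y.Wf.Top
import Vale.Agent.P073Y.Wf.Fin
import Vale.Agent.P073Y.Wf.Init1F
import Vale.Agent.P073Y.Wf.InitF
import Vale.Agent.P073Y.Nt.Flatb

/-!
# The engine with softly frozen cells: the statements without hypotheses
-/

open scoped NNReal

namespace P073.Wf

theorem patF : PATF := fun S _ _ _ _ F C W => pat_of S F C W

theorem finF : FINF := finF_of Nt.flatb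

theorem engineJ : ENGINEJ := engineJ_of Wb.swap1 Wb.swap2 Wb.swap3

theorem softModels : ∃ c₀ : ℝ≥0, ∀ c, c₀ ≤ c → FACESF c ∧ CELLSF c := by
  obtain ⟨c₀, h⟩ := Bd.models
  exact ⟨c₀, fun c hc => ⟨facesF_of (h c hc).1, cellsF_of (h c hc).2 Bd.arciso⟩⟩

theorem w2f_of_init (hI : INITF) : ∃ c₀ : ℝ≥0, ∀ c, c₀ ≤ c → W2F c := by
  obtain ⟨c₀, h⟩ := softModels
  exact ⟨c₀, fun c hc => w2f_of Wb.trace (h c hc).1 (h c hc).2 Wb.walls Wb.model_thm Wb.normle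
    engineJ patF hI finF⟩

theorem w2f : ∃ c₀ : ℝ≥0, ∀ c, c₀ ≤ c → W2F c := w2f_of_init initF

end P073.Wf
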