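import Vale.Agent.P073Y.Wb.Sk

/-!
# Softly frozen cells: definitions and statements

On the cells of `fro` the bands `ν` are given.  The engine may delete or relabel their
components, but it never creates other pieces of walls there.
-/

open Set Metric Topology Filter
open scoped NNReal

namespace P073.Wf

open P073.Bd (Band I cl Match Sgn Comm Ext PwLip Chart Lev corner Gen1)
open P073.Wb

/-- the two bands agree up to sign along the fibre of `x` -/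
def MAt {E : Type} (b g : Band E) (x : E) : Prop := ∃ ε : ℝ, (ε = 1 ∨ ε = -1) ∧
  g.u x = ε * b.u x ∧ ∀ s ∈ I, g.M (x, ε * s) = b.M (x, s)

variable {X : Base} {c₁ c₀ : ℝ≥0}

/-- the softly frozen cells with their natural bands -/
structure Soft (Fr : Frame X c₁) (c₀ : ℝ≥0) where
  /-- the softly frozen cells -/
  fro : Set X.K.ι
  /-- the domain of the natural bands -/
  Y : Set E3
  /-- the natural bands -/
  ν : X.ι → Band E3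
  face : ∀ c ∈ fro, ∀ j, X.K.cell j ⊆ X.K.cell c → j ∈ fro
  sub : ∀ c ∈ fro, X.K.cell c ⊆ Y
  on : ∀ i, (ν i).On Y
  keep : ∀ i, ∀ c ∈ fro, (ν i).Keeps (X.K.cell c)
  ext : ∀ i, Ext (ν i) (Fr.nb i) X.U
  disj : ∀ i j, i ≠ j → ∀ c ∈ fro, ¬ X.K.cell c ⊆ X.U →
    Disjoint ((ν i).B ∩ (ν j).B) (X.K.cell c)
  wire : ∀ i, ∀ e ∈ fro, X.K.dim e ≤ 1 → ∀ x ∈ (ν i).B ∩ X.K.cell e,
    ∃ p ∈ Fr.P ∩ (ν i).W, x ∈ (Fr.z p).half.B
  mt : ∀ i, ∀ e ∈ fro, ∀ p ∈ Fr.P ∩ (ν i).W ∩ X.K.cell e,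
    (Fr.z p).half.B ⊆ (ν i).B ∧ Match (Fr.z p).half (ν i)
  cvx : ∀ c ∈ fro, X.K.dim c = 3 → Convex ℝ (X.K.cell c)
  discs : ∀ i, ∀ c ∈ fro, X.K.dim c = 3 → ∃ 𝒟 : Finset (Set E3),
    (ν i).W ∩ X.K.cell c = ⋃ d ∈ 𝒟, d ∧ (∀ d ∈ 𝒟, ∀ d' ∈ 𝒟, d ≠ d' → Disjoint d d') ∧
    ∀ d ∈ 𝒟, ConBall 2 d (d ∩ X.K.bd c)
  lip₂ : ∀ i, ∀ φ ∈ fro, X.K.dim φ = 2 →
    LipschitzOnWith (X.L φ) (ν i).u ((ν i).B ∩ X.K.cell φ)
  lip₃ : ∀ i, ∀ c ∈ fro, X.K.dim c = 3 →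
    LipschitzOnWith (X.L c) (fun x => 2 * (ν i).u x) ((ν i).B ∩ X.K.cell c)
  L_ge : ∀ c, 2 ≤ X.K.dim c → c ∉ fro → ¬ X.K.cell c ⊆ X.U →
    c₀ * X.M₁ c * (X.M₂ c * X.L₀ c + ((Fr.P ∩ X.K.cell c).ncard : ℕ)) ≤ X.L c

variable {Fr : Frame X c₁}

/-- on the soft wires and faces the walls are parts of the natural walls -/
def Soft.Inv (S : Soft Fr c₀) (D : X.ι → Set E3) : Prop :=
  ∀ i, ∀ c ∈ S.fro, X.K.dim c ≤ 2 → D i ∩ X.K.cell c ⊆ ⋃ j, (S.ν j).W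

/-- on the soft cells the bands are parts of the inner halves of the natural bands -/
structure Soft.Nat (S : Soft Fr c₀) (b : X.ι → Band E3) : Prop where
  mat : ∀ i, ∀ c ∈ S.fro, ∀ x ∈ (b i).B ∩ X.K.cell c,
    ∃ j, x ∈ (S.ν j).half.B ∧ MAt (S.ν j).half (b i) x
  disj : ∀ i j, i ≠ j → ∀ c ∈ S.fro, ¬ X.K.cell c ⊆ X.U →
    Disjoint ((b i).B ∩ (b j).B) (X.K.cell c)

variable {D : X.ι → Set E3}

/-- the bands of the arcs in soft faces -/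
def Soft.NatF (S : Soft Fr c₀) (T : Trace Fr D) (β : T.α → Band E3) : Prop :=
  (∀ a, T.face a ∈ S.fro → ∃ j, T.A a ⊆ (S.ν j).W ∧ (β a).W = T.A a ∧
    (∀ x, x ∈ (β a).B ↔ x ∈ (S.ν j).B ∩ X.K.cell (T.face a) ∧ (S.ν j).M (x, 0) ∈ T.A a) ∧
    Match (β a) (S.ν j)) ∧
  ∀ a a', a ≠ a' → T.face a = T.face a' → T.face a ∈ S.fro → ¬ X.K.cell (T.face a) ⊆ X.U →
    Disjoint (β a).B (β a').B

/-- the bands of the discs in soft cells -/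
def Soft.NatC (S : Soft Fr c₀) (T : Trace Fr D) (γ : T.κ → Band E3) : Prop :=
  (∀ k, T.cel k ∈ S.fro → ∃ j, (γ k).B ⊆ (S.ν j).half.B ∧ Match (γ k) (S.ν j).half) ∧
  ∀ k l, k ≠ l → T.cel k = T.cel l → T.cel k ∈ S.fro → Disjoint (γ k).B (γ l).B

def FACESF (c₀ : ℝ≥0) : Prop := ∀ {X : Base} {c₁ : ℝ≥0} {Fr : Frame X c₁} (S : Soft Fr c₀)
  {D : X.ι → Set E3}, State Fr D → S.Inv D → ∀ T : Trace Fr D, ∃ β, Faces T β ∧ S.NatF T β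

def CELLSF (c₀ : ℝ≥0) : Prop := ∀ {X : Base} {c₁ : ℝ≥0} {Fr : Frame X c₁} (S : Soft Fr c₀)
  {D : X.ι → Set E3}, State Fr D → ∀ (T : Trace Fr D) (β : T.α → Band E3), Faces T β →
  S.NatF T β → ∃ γ, Cells T β γ ∧ S.NatC T γ

def NATQ : Prop := ∀ {X : Base} {c₁ c₀ : ℝ≥0} {Fr : Frame X c₁} (S : Soft Fr c₀)
  {D : X.ι → Set E3}, State Fr D → S.Inv D → ∀ (T : Trace Fr D) (β : T.α → Band E3)
  (γ : T.κ → Band E3) (b : X.ι → Band E3), Faces T β → Cells T β γ → Walls T γ b → Model Fr b →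
  S.NatF T β → S.NatC T γ → S.Nat b

/-- the exchange keeps the invariant -/
def SWAPF : Prop := ∀ {X : Base} {c₁ c₀ : ℝ≥0} {Fr : Frame X c₁} (S : Soft Fr c₀)
  {b : X.ι → Band E3} {D : X.ι → Set E3}, Model Fr b → S.Nat b → Swapped Fr b D → S.Inv D

/-- the iteration with an invariant `J`, for any way `Q` of normalising -/
def ENGINEJ : Prop := ∀ {X : Base} {c₀ : ℝ≥0} {Fr : Frame X c₀} (J : (X.ι → Set E3) → Prop)
  (Q : (X.ι → Set E3) → (X.ι → Band E3) → Prop),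
  (∀ D, State Fr D → J D → ∃ b, Model Fr b ∧ Le X (fun i => (b i).W) D ∧ Q D b ∧
    ∀ i, ∀ p ∈ (b i).W ∩ X.K.skel 1, Att X D X.faces i p) →
  (∀ D b D', Q D b → Model Fr b → Swapped Fr b D' → J D') →
  ∀ D, State Fr D → J D → ∃ D' b, State Fr D' ∧ J D' ∧ Le X D' D ∧ Model Fr b ∧ extra b = ∅ ∧
    Le X (fun i => (b i).W) D' ∧ Le X (fun i => (b i).W) D ∧ Q D' b ∧
    ∀ i, ∀ p ∈ (b i).W ∩ X.K.skel 1, ∃ j, Att X D X.faces j p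

/-- the engine with softly frozen cells -/
def ENGINEF (c₀ : ℝ≥0) : Prop := ∀ {X : Base} {c₁ : ℝ≥0} {Fr : Frame X c₁} (S : Soft Fr c₀)
  (D : X.ι → Set E3), State Fr D → S.Inv D → ∃ b, Model Fr b ∧ S.Nat b ∧ extra b = ∅ ∧
    Le X (fun i => (b i).W) D ∧ ∀ i, ∀ p ∈ (b i).W ∩ X.K.skel 1, ∃ j, Att X D X.faces j p

end P073.Wf
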