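import Vale.Agent.P073Y.Wf.Cells
import Vale.Agent.P073Y.Wb.Engine

/-!
# The iteration with softly frozen cells
-/

open Set Metric Topology Filter
open scoped NNReal

namespace P073.Wf

open P073.Bd (Band I cl Match Sgn Comm Ext PwLip Chart Lev corner Gen1 bas)
open P073.Wb P073.Wb.Sat
open P073.Wb.CellsAux (match_via)

theorem mat_via {E : Type} {z n g : Band E} (h : Part z n) (h' : Part z g) {x : E}
    (hx : x ∈ z.B) : x ∈ n.B ∧ MAt n g x :=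
  ⟨h.1 hx, match_via h.2 h'.2 hx (h.1 hx) (h'.1 hx)⟩

theorem natq : NATQ := by
  intro X c₁ c₀ Fr S D hS hI T β γ b F C W m hN hC
  refine ⟨fun i c hc x hx => ?_, fun i j hij c hc hU => disjoint_left.2 fun x hx hxc => ?_⟩
  · have hd := X.dim_le c
    rcases (by omega : X.K.dim c ≤ 1 ∨ X.K.dim c = 2 ∨ X.K.dim c = 3) with h | h | h
    · obtain ⟨a, y, rfl, hy, h1⟩ := sat_wire hS F C W hx.1 (X.K.cell_subset_skel h hx.2)
      obtain ⟨e, -, -, -, h2, h3, -⟩ := Fr.wire y (hy.mem_P hS)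
      have h4 : y ∈ (Fr.z y).W := h3.ge rfl
      have h5 : y ∈ X.K.cell c := X.K.cell_subset_of_mem (h2 h1.1.1) hx.2 (h2 h4.1).1
      obtain ⟨j, hj⟩ := mem_iUnion.1 (hI _ c hc (by omega) ⟨hy.mem.1.1, h5⟩)
      have h6 : Part (Fr.z y).half (S.ν j) := S.mt j c hc y ⟨⟨hy.mem_P hS, hj⟩, h5⟩
      exact ⟨j, mat_via h6.half (hy.part_zone F C W) h1⟩
    · obtain ⟨a, rfl, rfl, h1⟩ := sat_face hS F C W hx.1 h hx.2
      obtain ⟨j, -, -, h2, h3⟩ := hN.1 a hc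
      have h4 : Part (β a) (S.ν j) := ⟨fun y hy => ((h2 y).1 hy).1.1, h3⟩
      exact ⟨j, mat_via h4.half (part_arc C W a) h1⟩
    · obtain ⟨k, rfl, rfl, h1⟩ := sat_cell hS F C W hx.1 h hx.2
      obtain ⟨j, h2⟩ := hC.1 k hc
      exact ⟨j, mat_via h2 (part_cup W k) h1⟩
  · have hd := X.dim_le c
    rcases (by omega : X.K.dim c ≤ 1 ∨ X.K.dim c = 2 ∨ X.K.dim c = 3) with h | h | h
    · exact Sw2.zone_wire m hij hx (X.K.cell_subset_skel h hxc)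
    · obtain ⟨a, rfl, e1, h1⟩ := sat_face hS F C W hx.1 h hxc
      obtain ⟨a', e2, e3, h2⟩ := sat_face hS F C W hx.2 h hxc
      exact (hN.2 a a' (fun e => hij (by rw [← e1, ← e3, e])) e2.symm hc hU).notMem_of_mem_left
        h1.1 h2.1
    · obtain ⟨k, rfl, e1, h1⟩ := sat_cell hS F C W hx.1 h hxc
      obtain ⟨l, e2, e3, h2⟩ := sat_cell hS F C W hx.2 h hxc
      exact (hC.2 k l (fun e => hij (by rw [← e1, ← e3, e])) e2.symm hc).notMem_of_mem_left h1 h2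

/-- the walls of a natural model are parts of the natural walls -/
theorem Soft.Nat.wall {X : Base} {c₁ c₀ : ℝ≥0} {Fr : Frame X c₁} {S : Soft Fr c₀}
    {b : X.ι → Band E3} (h : S.Nat b) {i : X.ι} {c : X.K.ι} (hc : c ∈ S.fro) :
    (b i).W ∩ X.K.cell c ⊆ ⋃ j, (S.ν j).W := fun x hx => by
  obtain ⟨j, h1, ε, hε, h2, -⟩ := h.mat i c hc x ⟨hx.1.1, hx.2⟩
  refine mem_iUnion.2 ⟨j, (bas E3).half_W (S.ν j) ▸ ⟨h1, ?_⟩⟩
  rw [hx.1.2] at h2
  rcases hε with rfl | rfl <;> linarith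

theorem swapF : SWAPF := by
  intro X c₁ c₀ Fr S b D m hN s i c hc _ x hx
  obtain ⟨O, -, hxO, ⟨k, hk⟩ | ⟨j, k, ε, ε', hjk, -, -, hU, hu, -⟩⟩ := s.loc i x hx.1
  · have h1 : x ∈ (b k).W ∩ O := hk ▸ ⟨hx.1, hxO⟩
    exact hN.wall hc ⟨h1.1, hx.2⟩
  · have h1 := s.sub i hx.1
    have h2 := hu x ⟨hxO, h1⟩
    exact absurd hx.2 ((hN.disj j k hjk c hc fun h => hU.notMem_of_mem_left hxO (h hx.2)
      ).notMem_of_mem_left ⟨Sw2.mem_B (m.on j) h1 h2.1, Sw2.mem_B (m.on k) h1 h2.2⟩)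

theorem engineJ_of (h1 : SWAP1) (h2 : SWAP2) (h3 : SWAP3) : ENGINEJ := by
  intro X c₀ Fr J Q hN hJ D hD hI
  induction hm : meas X D using WellFoundedLT.induction generalizing D with
  | ind m ih =>
    obtain ⟨b, hb, hle, hQ, hatt⟩ := hN D hD hI
    rcases eq_empty_or_nonempty (extra b) with h0 | h0
    · exact ⟨D, b, hD, hI, Le.refl X D, hb, h0, hle, hle, hQ, fun i p hp => ⟨i, hatt i p hp⟩⟩
    · obtain ⟨D₁, hs⟩ := h1 hb
      have hD₁ := h2 hb hs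
      obtain ⟨hle₁, hlt⟩ := h3 hb hs
      have hlt' : meas X D₁ < m := hm ▸ (hle₁.meas_lt hb.fin (hlt h0)).trans_le hle.meas_le
      obtain ⟨D', b', hD', hI', hle', hb', h0', hl1, hl2, hQ', hatt'⟩ :=
        ih _ hlt' D₁ hD₁ (hJ D b D₁ hQ hb hs) rfl
      refine ⟨D', b', hD', hI', (hle'.trans hle₁).trans hle, hb', h0', hl1,
        (hl2.trans hle₁).trans hle, hQ', fun i p hp => ?_⟩
      obtain ⟨j, hj⟩ := hatt' i p hp
      obtain ⟨k, hk⟩ := hle₁.pts j p ⟨hj.mem, hp.2⟩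
      exact ⟨k, hatt k p ⟨hk, hp.2⟩⟩

theorem engineF_of {c : ℝ≥0} (hT : TRACE) (hFa : FACESF c) (hC : CELLSF c) (hW : WALLS)
    (hM : MODEL) (hN : NORMLE) (hE : ENGINEJ) : ENGINEF c := by
  intro X c₁ Fr S D hS hI
  obtain ⟨D', b, -, -, -, hb, h0, -, hle, hQ, hatt⟩ := hE (Fr := Fr) S.Inv (fun _ b => S.Nat b)
    (fun D hD hI => by
      obtain ⟨T⟩ := hT hD
      obtain ⟨β, hβ, n1⟩ := hFa S hD hI T
      obtain ⟨γ, hγ, n2⟩ := hC S hD T β hβ n1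
      obtain ⟨b, hb⟩ := hW hD T β γ hβ hγ
      obtain ⟨h1, h2⟩ := hN hD T β γ b hβ hγ hb
      have hm := hM hD T β γ b hβ hγ hb
      exact ⟨b, hm, h1, natq S hD hI T β γ b hβ hγ hb hm n1 n2, h2⟩)
    (fun _ _ _ hQ hb hs => swapF S hb hQ hs) D hS hI
  exact ⟨b, hb, hQ, h0, hle, hatt⟩

end P073.Wf
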